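import Vale.Agent.P038.H214.G

/-!
# Seymour's second neighbourhood conjecture
-/

set_option linter.unusedSectionVars false

namespace Vale.Agent.P038.H214

open Finset

variable {V : Type*} [Fintype V] [DecidableEq V]

/-- feasible pairs of the outer problem -/
def OF (A : V → Finset V) (p : (V → Finset V) × (V → Finset V)) : Prop :=
  (∀ a, Nc A a ⊆ p.1 a) ∧ (∀ a, p.1 a ⊆ p.2 a) ∧ ∀ y a, a ∈ A y → y ∉ p.2 a

/-- cost of the outer problem -/
def OG (A : V → Finset V) (p : (V → Finset V) × (V → Finset V)) : ℤ :=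
  ∑ a, h (Nc A) (p.1 a) + ∑ a, ((p.2 a).card : ℤ) - ∑ z, ((meet (Nc A) p.2 z).card : ℤ)

/-- feasible pairs of the inner problem -/
def IFe (A : V → Finset V) (p : (V → Finset V) × (V → Finset V)) : Prop :=
  (∀ a, a ∈ p.1 a) ∧ (∀ a, a ∈ p.2 a) ∧
    ∀ a b, a ≠ b → b ∈ cl (Nc A) (p.1 a) → a ∉ cl (Nc A) (p.2 b)

/-- cost of the inner problem -/
def IG (A : V → Finset V) (p : (V → Finset V) × (V → Finset V)) : ℤ :=
  ∑ a, h (Nc A) (p.1 a) + ∑ a, h (Nc A) (p.2 a)

open Classical in
theorem swap_card (p : V → V → Prop) :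
    ∑ x, ((univ.filter fun z => p x z).card : ℤ) = ∑ z, ((univ.filter fun x => p x z).card : ℤ) := by
  have : ∑ x, (univ.filter fun z => p x z).card = ∑ z, (univ.filter fun x => p x z).card := by
    simp only [card_filter]
    exact Finset.sum_comm
  exact_mod_cast this

theorem card_insert_compl {S : Finset V} {a : V} (ha : a ∈ S) :
    ((insert a (univ \ S)).card : ℤ) = 1 + Fintype.card V - S.card := by
  have h1 : a ∉ univ \ S := by simp [ha]
  rw [card_insert_of_notMem h1, card_sdiff_of_subset (subset_univ _)]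
  have h2 := card_le_univ S
  rw [card_univ]
  push_cast [Nat.cast_sub h2]
  ring

/-- (R) at an outer minimiser -/
theorem outR (A : V → Finset V) (B U : V → Finset V) (hf : OF A (B, U))
    (hmin : ∀ q, OF A q → OG A (B, U) ≤ OG A q) (a : V) (Y : Finset V) (h1 : B a ⊆ Y)
    (h2 : Y ⊆ U a) : h (Nc A) (B a) ≤ h (Nc A) Y := by
  have hf' : OF A (Function.update B a Y, U) := by
    refine ⟨fun c => ?_, fun c => ?_, hf.2.2⟩
    · by_cases hc : c = a
      · subst hc; simpa using (hf.1 c).trans h1
      · simpa [Function.update_of_ne hc] using hf.1 c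
    · by_cases hc : c = a
      · subst hc; simpa using h2
      · simpa [Function.update_of_ne hc] using hf.2.1 c
  have hm := hmin _ hf'
  unfold OG at hm
  simp only at hm
  have e1 : ∑ c, h (Nc A) (Function.update B a Y c) =
      ∑ c, h (Nc A) (B c) + (h (Nc A) Y - h (Nc A) (B a)) := by
    rw [← Finset.add_sum_erase univ _ (mem_univ a), ← Finset.add_sum_erase univ
      (fun c => h (Nc A) (B c)) (mem_univ a)]
    have : ∑ c ∈ univ.erase a, h (Nc A) (Function.update B a Y c) =
        ∑ c ∈ univ.erase a, h (Nc A) (B c) := by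
      apply Finset.sum_congr rfl
      intro c hc
      rw [Function.update_of_ne (ne_of_mem_erase hc)]
    rw [this, Function.update_self]
    ring
  rw [e1] at hm
  linarith

/-- (C) at an outer minimiser -/
theorem outC (A : V → Finset V) (B U : V → Finset V) (hf : OF A (B, U))
    (hmin : ∀ q, OF A q → OG A (B, U) ≤ OG A q) (b : V) (S : Finset V)
    (hS : ∀ a ∈ S, b ∈ U a ∧ b ∉ B a) :
    S.card ≤ (univ.filter fun z => b ∈ meet (Nc A) U z ∧ ∃ a ∈ S, z ∈ Nc A a).card := by
  classical
  let U' : V → Finset V := fun a => if a ∈ S then (U a).erase b else U a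
  have hf' : OF A (B, U') := by
    refine ⟨hf.1, fun c => ?_, fun y a ha => ?_⟩
    · simp only [U']
      split_ifs with hc
      · intro x hx
        refine mem_erase.2 ⟨fun hxb => (hS c hc).2 (hxb ▸ hx), hf.2.1 c hx⟩
      · exact hf.2.1 c
    · simp only [U']
      split_ifs with hc
      · exact fun hy => hf.2.2 y a ha (mem_of_mem_erase hy)
      · exact hf.2.2 y a ha
  have hm := hmin _ hf'
  unfold OG at hm
  simp only at hm
  have e1 : ∑ a, ((U' a).card : ℤ) = ∑ a, ((U a).card : ℤ) - S.card := by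
    have : ∀ a, ((U' a).card : ℤ) = ((U a).card : ℤ) - if a ∈ S then 1 else 0 := by
      intro a
      simp only [U']
      split_ifs with hc
      · have h1 := card_erase_of_mem (hS a hc).1
        have h2 : 0 < (U a).card := card_pos.2 ⟨b, (hS a hc).1⟩
        omega
      · ring
    simp only [this, Finset.sum_sub_distrib]
    simp
  have e2 : ∑ z, ((meet (Nc A) U z).card : ℤ) - ((univ.filter fun z =>
      b ∈ meet (Nc A) U z ∧ ∃ a ∈ S, z ∈ Nc A a).card : ℤ) ≤ ∑ z, ((meet (Nc A) U' z).card : ℤ) := by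
    have h1 : ∀ z, ((meet (Nc A) U z).card : ℤ) - (if (b ∈ meet (Nc A) U z ∧ ∃ a ∈ S, z ∈ Nc A a)
        then 1 else 0) ≤ ((meet (Nc A) U' z).card : ℤ) := by
      intro z
      split_ifs with hz
      · have h2 : (meet (Nc A) U z).erase b ⊆ meet (Nc A) U' z := by
          intro x hx
          rw [mem_erase, mem_meet] at hx
          rw [mem_meet]
          intro a ha
          simp only [U']
          split_ifs
          · exact mem_erase.2 ⟨hx.1, hx.2 a ha⟩
          · exact hx.2 a ha
        have h3 := card_le_card h2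
        rw [card_erase_of_mem hz.1] at h3
        omega
      · have h2 : meet (Nc A) U z ⊆ meet (Nc A) U' z := by
          intro x hx
          rw [mem_meet] at hx ⊢
          intro a ha
          simp only [U']
          split_ifs with hc
          · refine mem_erase.2 ⟨fun hxb => hz ⟨?_, a, hc, ha⟩, hx a ha⟩
            rw [mem_meet]
            intro a' ha'
            rw [← hxb]
            exact hx a' ha'
          · exact hx a ha
        have h3 := card_le_card h2
        omega
    have h4 := Finset.sum_le_sum fun z (_ : z ∈ (univ : Finset V)) => h1 z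
    rw [Finset.sum_sub_distrib] at h4
    have h5 : (∑ z, (if (b ∈ meet (Nc A) U z ∧ ∃ a ∈ S, z ∈ Nc A a) then (1 : ℤ) else 0)) =
        ((univ.filter fun z => b ∈ meet (Nc A) U z ∧ ∃ a ∈ S, z ∈ Nc A a).card : ℤ) := by
      simp
    rw [h5] at h4
    exact h4
  rw [e1] at hm
  have : (S.card : ℤ) ≤ ((univ.filter fun z =>
      b ∈ meet (Nc A) U z ∧ ∃ a ∈ S, z ∈ Nc A a).card : ℤ) := by linarith
  exact_mod_cast this

/-- **The shift**: an outer minimiser gives an inner feasible pair of no larger cost. -/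
theorem cand (A : V → Finset V) (hA : ∀ u v, v ∈ A u → u ∉ A v) (B U : V → Finset V)
    (hf : OF A (B, U)) (hmin : ∀ q, OF A q → OG A (B, U) ≤ OG A q) :
    ∃ q, IFe A q ∧ IG A q ≤ OG A (B, U) := by
  classical
  have hirr : ∀ v, v ∉ A v := fun v hv => hA v v hv hv
  let X : V → Finset V := fun z => meet (Nc A) B z
  let Y : V → Finset V := fun x => univ.filter fun z => z = x ∨ x ∉ cl (Nc A) (U z)
  have hBU := hf.2.1
  simp only at hBU
  have hself : ∀ a, a ∈ B a := fun a => hf.1 a (self_Nc A a)
  have hmemY : ∀ x z, z ∈ Y x ↔ z = x ∨ x ∉ cl (Nc A) (U z) := by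
    intro x z; simp [Y]
  -- no reversed arcs in the closure of the meet
  have hrev : ∀ a x, a ∈ A x → x ∉ cl (Nc A) (meet (Nc A) U a) := by
    intro a x hax hx
    obtain ⟨y, hy, hxy⟩ := mem_cl.1 hx
    have hyx : y ∈ U x := mem_meet.1 hy x (mem_Nc.2 (Or.inr hax))
    rcases mem_Nc.1 hxy with rfl | hxy
    · exact hf.2.2 x a hax (mem_meet.1 hy a (self_Nc A a))
    · exact hf.2.2 y x hxy hyx
  refine ⟨(X, Y), ⟨?_, ?_, ?_⟩, ?_⟩
  · intro a
    simp only [X]
    rw [mem_meet]
    exact fun c hc => hf.1 c hc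
  · intro a
    simp only
    rw [hmemY]; exact Or.inl rfl
  · intro a b hab hb ha
    simp only at hb ha
    obtain ⟨x, hx, hbx⟩ := mem_cl.1 hb
    obtain ⟨y, hy, hay⟩ := mem_cl.1 ha
    simp only [X] at hx
    rw [hmemY] at hy
    rcases hy with rfl | hy
    · -- `y = b`, `b → a`
      have hba : a ∈ A y := (mem_Nc.1 hay).resolve_left hab
      have hxU : x ∈ meet (Nc A) U a := mem_meet.2 fun c hc => hBU c (mem_meet.1 hx c hc)
      exact hrev a y hba (mem_cl.2 ⟨x, hxU, hbx⟩)
    · exact hy (mem_cl.2 ⟨x, hBU y (mem_meet.1 hx y hay), hbx⟩)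
  · -- cost
    have hkey := key (Nc A) (self_Nc A) B U hBU (outR A B U hf hmin) (outC A B U hf hmin)
    have c1 : ∑ x, ((Y x).card : ℤ) = ∑ z, (1 + (Fintype.card V : ℤ) - ((cl (Nc A) (U z)).card : ℤ)) := by
      have h0 := swap_card fun x z => z = x ∨ x ∉ cl (Nc A) (U z)
      have h1 : ∑ x, ((Y x).card : ℤ) =
          ∑ x, ((univ.filter fun z => z = x ∨ x ∉ cl (Nc A) (U z)).card : ℤ) := by
        apply Finset.sum_congr rfl
        intro x _
        simp only [Y]
      rw [h1]
      refine Eq.trans ?_ (h0.trans ?_)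
      · apply Finset.sum_congr rfl
        intro x _
        congr!
      · apply Finset.sum_congr rfl
        intro z _
        rw [← card_insert_compl (sub_cl A (U z) (hBU z (hself z)))]
        congr 2
        ext x
        simp only [mem_filter, mem_univ, true_and, mem_insert, mem_sdiff]
        constructor
        · rintro (rfl | h')
          · exact Or.inl rfl
          · exact Or.inr h'
        · rintro (rfl | h')
          · exact Or.inl rfl
          · exact Or.inr h'
    have c2 : ∑ x, ((cl (Nc A) (Y x)).card : ℤ) ≤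
        ∑ a, (1 + (Fintype.card V : ℤ) - ((cl (Nc A) (meet (Nc A) U a)).card : ℤ)) := by
      have h0 := swap_card fun x a => a ∈ cl (Nc A) (Y x)
      have h1 : ∑ x, ((cl (Nc A) (Y x)).card : ℤ) =
          ∑ x, ((univ.filter fun a => a ∈ cl (Nc A) (Y x)).card : ℤ) := by
        apply Finset.sum_congr rfl
        intro x _
        congr 2
        ext a; simp
      rw [h1]
      refine le_trans (le_of_eq (Eq.trans ?_ h0)) ?_
      · apply Finset.sum_congr rfl
        intro x _
        congr!
      · apply Finset.sum_le_sum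
        intro a _
        have ham : a ∈ meet (Nc A) U a := mem_meet.2 fun c hc => hBU c (hf.1 c hc)
        rw [← card_insert_compl (sub_cl A _ ham)]
        have hss : (univ.filter fun x => a ∈ cl (Nc A) (Y x)) ⊆
            insert a (univ \ cl (Nc A) (meet (Nc A) U a)) := by
          intro x hx
          rw [mem_filter] at hx
          obtain ⟨z, hz, haz⟩ := mem_cl.1 hx.2
          rw [mem_insert]
          by_cases hxa : x = a
          · exact Or.inl hxa
          · right
            rw [mem_sdiff]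
            refine ⟨mem_univ _, fun hxm => ?_⟩
            rw [hmemY] at hz
            rcases hz with rfl | hz
            · exact hrev a z ((mem_Nc.1 haz).resolve_left (Ne.symm hxa)) hxm
            · apply hz
              obtain ⟨y, hy, hxy⟩ := mem_cl.1 hxm
              exact mem_cl.2 ⟨y, mem_meet.1 hy z haz, hxy⟩
        refine Int.ofNat_le.2 ?_
        convert card_le_card hss
    unfold IG OG
    simp only
    have e1 : ∑ a, h (Nc A) (Y a) = ∑ x, ((cl (Nc A) (Y x)).card : ℤ) - ∑ x, ((Y x).card : ℤ) := by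
      simp only [h, Finset.sum_sub_distrib]
    have e2 : ∑ a, h (Nc A) (U a) = ∑ x, ((cl (Nc A) (U x)).card : ℤ) - ∑ x, ((U x).card : ℤ) := by
      simp only [h, Finset.sum_sub_distrib]
    have e3 : ∑ a, h (Nc A) (meet (Nc A) U a) = ∑ x, ((cl (Nc A) (meet (Nc A) U x)).card : ℤ) -
        ∑ x, ((meet (Nc A) U x).card : ℤ) := by
      simp only [h, Finset.sum_sub_distrib]
    rw [Finset.sum_sub_distrib] at c1 c2
    rw [e1]
    rw [e2, e3] at hkey
    simp only [X]
    linarith

/-- an inner feasible pair gives an outer feasible pair -/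
theorem shiftO (A : V → Finset V) (hA : ∀ u v, v ∈ A u → u ∉ A v) (X Y : V → Finset V)
    (hf : IFe A (X, Y)) : ∃ q, OF A q ∧
      OG A q ≤ ∑ a, h (Nc A) (cl (Nc A) (X a)) + ∑ a, h (Nc A) (cl (Nc A) (Y a)) := by
  classical
  have hX := hf.1
  have hY := hf.2.1
  have hXY := hf.2.2
  simp only at hX hY hXY
  let U : V → Finset V := fun a => univ.filter fun x => x = a ∨ a ∉ cl (Nc A) (Y x)
  have hmemU : ∀ a x, x ∈ U a ↔ x = a ∨ a ∉ cl (Nc A) (Y x) := by intro a x; simp [U]
  refine ⟨(fun a => cl (Nc A) (X a), U), ⟨?_, ?_, ?_⟩, ?_⟩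
  · intro a x hx
    exact mem_cl.2 ⟨a, hX a, hx⟩
  · intro a b hb
    simp only at hb
    rw [hmemU]
    by_cases hab : b = a
    · exact Or.inl hab
    · exact Or.inr (hXY a b (Ne.symm hab) hb)
  · intro y a ha hy
    simp only at hy
    rw [hmemU] at hy
    rcases hy with rfl | hy
    · exact hA y y ha ha
    · exact hy (mem_cl.2 ⟨y, hY y, mem_Nc.2 (Or.inr ha)⟩)
  · have c1 : ∑ a, ((U a).card : ℤ) = ∑ x, (1 + (Fintype.card V : ℤ) - ((cl (Nc A) (Y x)).card : ℤ)) := by
      have h0 := swap_card fun a x => x = a ∨ a ∉ cl (Nc A) (Y x)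
      refine Eq.trans ?_ (h0.trans ?_)
      · apply Finset.sum_congr rfl
        intro x _
        simp only [U]
        congr!
      · apply Finset.sum_congr rfl
        intro x _
        rw [← card_insert_compl (sub_cl A (Y x) (hY x))]
        congr 2
        ext a
        simp only [mem_filter, mem_univ, true_and, mem_insert, mem_sdiff]
        constructor
        · rintro (rfl | h')
          · exact Or.inl rfl
          · exact Or.inr h'
        · rintro (rfl | h')
          · exact Or.inl rfl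
          · exact Or.inr h'
    have c2 : ∑ x, (1 + (Fintype.card V : ℤ) - ((cl (Nc A) (cl (Nc A) (Y x))).card : ℤ)) ≤
        ∑ z, ((meet (Nc A) U z).card : ℤ) := by
      have h0 := swap_card fun z x => x ∈ meet (Nc A) U z
      have h1 : ∑ z, ((meet (Nc A) U z).card : ℤ) =
          ∑ z, ((univ.filter fun x => x ∈ meet (Nc A) U z).card : ℤ) := by
        apply Finset.sum_congr rfl
        intro z _
        congr 2
        ext a; simp
      rw [h1]
      refine le_trans ?_ (le_of_eq (Eq.trans h0.symm ?_))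
      · apply Finset.sum_le_sum
        intro x _
        rw [← card_insert_compl (sub_cl A _ (sub_cl A _ (hY x)))]
        have hss : insert x (univ \ cl (Nc A) (cl (Nc A) (Y x))) ⊆ (univ.filter fun z => x ∈ meet (Nc A) U z) := by
          intro z hz
          rw [mem_insert, mem_sdiff] at hz
          rw [mem_filter]
          refine ⟨mem_univ _, mem_meet.2 fun a ha => ?_⟩
          rw [hmemU]
          rcases hz with rfl | hz
          · by_cases haz : z = a
            · exact Or.inl haz
            · exact Or.inr (hXY a z (Ne.symm haz) (mem_cl.2 ⟨a, hX a, ha⟩))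
          · exact Or.inr fun hc => hz.2 (mem_cl.2 ⟨a, hc, ha⟩)
        refine Int.ofNat_le.2 ?_
        convert card_le_card hss
      · apply Finset.sum_congr rfl
        intro x _
        congr!
    unfold OG
    simp only
    have e1 : ∑ a, h (Nc A) (cl (Nc A) (Y a)) = ∑ x, ((cl (Nc A) (cl (Nc A) (Y x))).card : ℤ) -
        ∑ x, ((cl (Nc A) (Y x)).card : ℤ) := by
      simp only [h, Finset.sum_sub_distrib]
    rw [Finset.sum_sub_distrib] at c1 c2
    rw [e1]
    linarith

theorem no_CE [Nonempty V] (A : V → Finset V) : ¬ CE A := by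
  classical
  intro hA0
  -- arc-minimal counterexample
  obtain ⟨A, hA, hmin⟩ := Set.exists_min_image {A : V → Finset V | CE A}
    (fun A => ∑ v, (A v).card) (Set.toFinite _) ⟨A, hA0⟩
  have hA1 : CE A := hA
  have hmin' : ∀ A' : V → Finset V, CE A' → ∑ v, (A v).card ≤ ∑ v, (A' v).card :=
    fun A' hA' => hmin A' hA'
  -- outer minimiser
  have hirr : ∀ v, v ∉ A v := fun v hv => hA1.1 v v hv hv
  have hOne : {p : (V → Finset V) × (V → Finset V) | OF A p}.Nonempty := by
    refine ⟨(Nc A, Nc A), fun a => Subset.refl _, fun a => Subset.refl _, fun y a ha hy => ?_⟩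
    simp only at hy
    rcases mem_Nc.1 hy with rfl | hy
    · exact hirr _ ha
    · exact hA1.1 y a ha hy
  obtain ⟨⟨B, U⟩, hO, hOmin⟩ := Set.exists_min_image {p : (V → Finset V) × (V → Finset V) | OF A p}
    (OG A) (Set.toFinite _) hOne
  have hO' : OF A (B, U) := hO
  obtain ⟨q0, hq0, hq0c⟩ := cand A hA1.1 B U hO' (fun q hq => hOmin q hq)
  -- inner minimiser
  obtain ⟨⟨X, Y⟩, hI, hImin⟩ := Set.exists_min_image {p : (V → Finset V) × (V → Finset V) | IFe A p}
    (IG A) (Set.toFinite _) ⟨q0, hq0⟩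
  have hI' : IFe A (X, Y) := hI
  obtain ⟨q1, hq1, hq1c⟩ := shiftO A hA1.1 X Y hI'
  have h1 : OG A (B, U) ≤ OG A q1 := hOmin q1 hq1
  have h2 : IG A (X, Y) ≤ IG A q0 := hImin q0 hq0
  -- (G)
  have hG : ∀ S : Finset V, h (Nc A) (cl (Nc A) S) ≤ h (Nc A) S := by
    intro S
    by_cases hS : (cl (Nc A) S \ S).Nonempty
    · have h3 := Gstep A hA1 hmin' S hS
      rw [card_sdiff_of_subset (sub_cl A _), card_sdiff_of_subset (sub_cl A _)] at h3
      have h4 := card_le_card (sub_cl A S)
      have h5 := card_le_card (sub_cl A (cl (Nc A) S))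
      unfold h
      omega
    · rw [not_nonempty_iff_eq_empty, sdiff_eq_empty_iff_subset] at hS
      have : cl (Nc A) S = S := Subset.antisymm hS (sub_cl A S)
      rw [this]
  have hGs : ∀ S : Finset V, (cl (Nc A) S \ S).Nonempty → h (Nc A) (cl (Nc A) S) < h (Nc A) S := by
    intro S hS
    have h3 := Gstep A hA1 hmin' S hS
    rw [card_sdiff_of_subset (sub_cl A _), card_sdiff_of_subset (sub_cl A _)] at h3
    have h4 := card_le_card (sub_cl A S)
    have h5 := card_le_card (sub_cl A (cl (Nc A) S))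
    unfold h
    omega
  -- a row which is not closed
  obtain ⟨C, ⟨hCne, hCcl⟩, hCmin⟩ := Set.exists_min_image
    {C : Finset V | C.Nonempty ∧ cl (Nc A) C ⊆ C} (fun C => C.card) (Set.toFinite _)
    ⟨univ, univ_nonempty, subset_univ _⟩
  obtain ⟨c, hc⟩ := hCne
  have hcard : 0 < (A c).card := lt_of_le_of_lt (Nat.zero_le _) (hA1.2 c)
  obtain ⟨b, hb⟩ := card_pos.1 hcard
  have hbc : c ≠ b := fun hcb => hirr c (hcb ▸ hb)
  have hrow : (cl (Nc A) (X b) \ X b).Nonempty := by
    by_contra hcl
    rw [not_nonempty_iff_eq_empty, sdiff_eq_empty_iff_subset] at hcl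
    have hbX : b ∈ X b := hI'.1 b
    have hbC : b ∈ C := hCcl (mem_cl.2 ⟨c, hc, mem_Nc.2 (Or.inr hb)⟩)
    have h3 : C.card ≤ (X b ∩ C).card := hCmin (X b ∩ C) ⟨⟨b, mem_inter.2 ⟨hbX, hbC⟩⟩,
      subset_inter ((cl_mono inter_subset_left).trans hcl)
        ((cl_mono inter_subset_right).trans hCcl)⟩
    have h4 : X b ∩ C = C := eq_of_subset_of_card_le inter_subset_right h3
    have hcX : c ∈ X b := by
      rw [← h4] at hc
      exact (mem_inter.1 hc).1
    exact hI'.2.2 b c (Ne.symm hbc) (sub_cl A _ hcX)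
      (mem_cl.2 ⟨c, hI'.2.1 c, mem_Nc.2 (Or.inr hb)⟩)
  have h5 : ∑ a, h (Nc A) (cl (Nc A) (X a)) < ∑ a, h (Nc A) (X a) :=
    Finset.sum_lt_sum (fun a _ => hG _) ⟨b, mem_univ _, hGs _ hrow⟩
  have h6 : ∑ a, h (Nc A) (cl (Nc A) (Y a)) ≤ ∑ a, h (Nc A) (Y a) := Finset.sum_le_sum fun a _ => hG _
  have h7 : IG A (X, Y) = ∑ a, h (Nc A) (X a) + ∑ a, h (Nc A) (Y a) := rfl
  linarith

end Vale.Agent.P038.H214
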