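import Vale.Agent.P038.H214.Key

/-!
# Arc-minimal counterexamples: every set has a larger first than second out-boundary
-/

set_option linter.unusedSectionVars false

namespace Vale.Agent.P038.H214

open Finset

variable {V : Type*} [Fintype V] [DecidableEq V]

/-- closed out-neighbourhood of a vertex, for the oriented graph with out-neighbourhoods `A v` -/
def Nc (A : V → Finset V) (v : V) : Finset V := insert v (A v)

/-- second out-neighbourhood -/
def sec (A : V → Finset V) (v : V) : Finset V := cl (Nc A) (Nc A v) \ Nc A v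

/-- `A` is an oriented graph in which every vertex has `|N₂⁺| < |N₁⁺|`. -/
def CE (A : V → Finset V) : Prop :=
  (∀ u v, v ∈ A u → u ∉ A v) ∧ ∀ v, (sec A v).card < (A v).card

theorem mem_Nc {A : V → Finset V} {v x : V} : x ∈ Nc A v ↔ x = v ∨ x ∈ A v := by
  simp [Nc]

theorem self_Nc (A : V → Finset V) (v : V) : v ∈ Nc A v := by simp [Nc]

theorem sub_cl (A : V → Finset V) (S : Finset V) : S ⊆ cl (Nc A) S :=
  fun x hx => mem_cl.2 ⟨x, hx, self_Nc A x⟩

/-- (G): in an arc-minimal counterexample `|N₂(X)| < |N₁(X)|` for every set `X` which is not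
out-closed. -/
theorem Gstep (A : V → Finset V) (hA : CE A)
    (hmin : ∀ A' : V → Finset V, CE A' → ∑ v, (A v).card ≤ ∑ v, (A' v).card)
    (X : Finset V) (hL : (cl (Nc A) X \ X).Nonempty) :
    (cl (Nc A) (cl (Nc A) X) \ cl (Nc A) X).card < (cl (Nc A) X \ X).card := by
  by_contra hcon
  push Not at hcon
  set N := Nc A with hNdef
  set L := cl N X \ X with hLdef
  have hNs : ∀ v, v ∈ N v := fun v => self_Nc A v
  have hsub : ∀ S, S ⊆ cl N S := fun S => sub_cl A S
  let d : Finset V → ℤ := fun T => ((cl N T \ X).card : ℤ) - 2 * T.card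
  have hd0 : d ∅ = 0 := by simp [d, cl]
  have hdL : 0 ≤ d L := by
    have h1 : L ∪ (cl N (cl N X) \ cl N X) ⊆ cl N L \ X := by
      intro z hz
      rw [mem_union] at hz
      rcases hz with hz | hz
      · exact mem_sdiff.2 ⟨hsub L hz, (mem_sdiff.1 hz).2⟩
      · rw [mem_sdiff] at hz
        obtain ⟨hz1, hz2⟩ := hz
        obtain ⟨y, hy, hzy⟩ := mem_cl.1 hz1
        have hyX : y ∉ X := fun hyX => hz2 (mem_cl.2 ⟨y, hyX, hzy⟩)
        exact mem_sdiff.2 ⟨mem_cl.2 ⟨y, mem_sdiff.2 ⟨hy, hyX⟩, hzy⟩, fun hzX => hz2 (hsub X hzX)⟩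
    have h2 : Disjoint L (cl N (cl N X) \ cl N X) := by
      rw [Finset.disjoint_left]
      intro z hz hz'
      exact (mem_sdiff.1 hz').2 (mem_sdiff.1 hz).1
    have h3 := card_le_card h1
    rw [card_union_of_disjoint h2] at h3
    simp only [d]
    omega
  have hne : (L.ssubsets).Nonempty := ⟨∅, mem_ssubsets.2 (Finset.empty_ssubset.2 hL)⟩
  obtain ⟨T, hT, hTmin⟩ := Finset.exists_min_image L.ssubsets d hne
  rw [mem_ssubsets] at hT
  have hTd : d T ≤ 0 := by
    rw [← hd0]; exact hTmin ∅ (mem_ssubsets.2 (Finset.empty_ssubset.2 hL))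
  have hTall : ∀ T' ⊆ L, d T ≤ d T' := by
    intro T' hT'
    rcases eq_or_ne T' L with rfl | hne'
    · exact hTd.trans hdL
    · exact hTmin T' (mem_ssubsets.2 (lt_of_le_of_ne hT' hne'))
  -- Hall condition
  have hE : ∀ D ⊆ L \ T, 2 * D.card ≤ (cl N D \ (cl N T ∪ X)).card := by
    intro D hD
    have hDL : D ⊆ L := hD.trans sdiff_subset
    have hDT : Disjoint T D := by
      rw [Finset.disjoint_left]
      intro z hz hz'
      exact (mem_sdiff.1 (hD hz')).2 hz
    have h1 := hTall (T ∪ D) (union_subset hT.1 hDL)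
    have h2 : cl N (T ∪ D) \ X ⊆ (cl N T \ X) ∪ (cl N D \ (cl N T ∪ X)) := by
      intro z hz
      rw [mem_sdiff] at hz
      obtain ⟨hz1, hzX⟩ := hz
      obtain ⟨y, hy, hzy⟩ := mem_cl.1 hz1
      by_cases hzT : z ∈ cl N T
      · exact mem_union_left _ (mem_sdiff.2 ⟨hzT, hzX⟩)
      · rw [mem_union] at hy
        rcases hy with hy | hy
        · exact absurd (mem_cl.2 ⟨y, hy, hzy⟩) hzT
        · refine mem_union_right _ (mem_sdiff.2 ⟨mem_cl.2 ⟨y, hy, hzy⟩, ?_⟩)
          rw [mem_union]; tauto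
    have h3 := (card_le_card h2).trans (card_union_le _ _)
    have h4 := card_union_of_disjoint hDT
    simp only [d] at h1
    omega
  -- the smaller graph
  let A' : V → Finset V := fun y => if y ∈ X then A y ∩ (X ∪ T) else A y
  have hA'sub : ∀ v, A' v ⊆ A v := by
    intro v
    simp only [A']
    split_ifs
    · exact inter_subset_left
    · exact Subset.refl _
  have hN'sub : ∀ v, Nc A' v ⊆ N v := fun v => insert_subset_insert _ (hA'sub v)
  have hCE : CE A' := by
    refine ⟨fun u v huv hvu => hA.1 u v (hA'sub u huv) (hA'sub v hvu), ?_⟩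
    intro v
    by_cases hv : v ∈ X
    · set D := A v \ (X ∪ T) with hDdef
      have hA'v : A' v = A v ∩ (X ∪ T) := by simp [A', hv]
      have hDsub : D ⊆ L \ T := by
        intro z hz
        rw [hDdef, mem_sdiff, mem_union, not_or] at hz
        exact mem_sdiff.2 ⟨mem_sdiff.2 ⟨mem_cl.2 ⟨v, hv, mem_Nc.2 (Or.inr hz.1)⟩, hz.2.1⟩, hz.2.2⟩
      have hED := hE D hDsub
      set E := cl N D \ (cl N T ∪ X) with hEdef
      have hE1 : E ⊆ sec A v ∪ D := by
        intro z hz
        rw [hEdef, mem_sdiff, mem_union, not_or] at hz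
        obtain ⟨hz1, hzT, hzX⟩ := hz
        obtain ⟨y, hy, hzy⟩ := mem_cl.1 hz1
        by_cases hzv : z ∈ A v
        · refine mem_union_right _ (mem_sdiff.2 ⟨hzv, ?_⟩)
          rw [mem_union, not_or]
          exact ⟨hzX, fun hc => hzT (hsub T hc)⟩
        · refine mem_union_left _ (mem_sdiff.2 ⟨mem_cl.2 ⟨y, mem_Nc.2 (Or.inr ?_), hzy⟩, ?_⟩)
          · exact (mem_sdiff.1 hy).1
          · rw [mem_Nc, not_or]
            exact ⟨fun hc => hzX (hc ▸ hv), hzv⟩
      have hE2 : sec A' v ⊆ (sec A v ∪ D) \ E := by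
        intro z hz
        rw [sec, mem_sdiff] at hz
        obtain ⟨hz1, hz2⟩ := hz
        obtain ⟨c, hc, hzc⟩ := mem_cl.1 hz1
        have hzc' : z ∈ A' c := by
          rcases mem_Nc.1 hzc with rfl | h
          · exact absurd hc hz2
          · exact h
        have hzv : z ≠ v := fun hc' => hz2 (hc' ▸ self_Nc A' v)
        have hzv' : z ∉ A' v := fun hc' => hz2 (mem_Nc.2 (Or.inr hc'))
        rw [mem_sdiff]
        constructor
        · by_cases hzA : z ∈ A v
          · refine mem_union_right _ (mem_sdiff.2 ⟨hzA, fun hc' => hzv' ?_⟩)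
            rw [hA'v]; exact mem_inter.2 ⟨hzA, hc'⟩
          · refine mem_union_left _ (mem_sdiff.2 ⟨mem_cl.2 ⟨c, hN'sub v hc, hN'sub c hzc⟩, ?_⟩)
            rw [mem_Nc, not_or]; exact ⟨hzv, hzA⟩
        · intro hzE
          rw [hEdef, mem_sdiff, mem_union, not_or] at hzE
          obtain ⟨-, hzT, hzX⟩ := hzE
          have hcXT : c ∈ X ∨ c ∈ T := by
            rcases mem_Nc.1 hc with rfl | hc
            · exact Or.inl hv
            · rw [hA'v, mem_inter, mem_union] at hc
              exact hc.2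
          rcases hcXT with hcX | hcT
          · have : z ∈ X ∪ T := by
              have h' : A' c = A c ∩ (X ∪ T) := by simp [A', hcX]
              rw [h'] at hzc'
              exact (mem_inter.1 hzc').2
            rcases mem_union.1 this with h' | h'
            · exact hzX h'
            · exact hzT (hsub T h')
          · exact hzT (mem_cl.2 ⟨c, hcT, hN'sub c hzc⟩)
      have h1 := card_le_card hE2
      rw [card_sdiff_of_subset hE1] at h1
      have h2 := card_union_le (sec A v) D
      have h3 : (A v ∩ (X ∪ T)).card + D.card = (A v).card := by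
        rw [hDdef]; exact card_inter_add_card_sdiff _ _
      have h4 := hA.2 v
      have h5 := card_le_card hE1
      rw [hA'v]
      omega
    · have hA'v : A' v = A v := by simp [A', hv]
      rw [hA'v]
      refine lt_of_le_of_lt (card_le_card ?_) (hA.2 v)
      intro z hz
      rw [sec, mem_sdiff] at hz ⊢
      obtain ⟨hz1, hz2⟩ := hz
      obtain ⟨c, hc, hzc⟩ := mem_cl.1 hz1
      refine ⟨mem_cl.2 ⟨c, hN'sub v hc, hN'sub c hzc⟩, ?_⟩
      rw [mem_Nc] at hz2 ⊢
      rwa [hA'v] at hz2
  -- fewer arcs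
  have hlt : ∑ v, (A' v).card < ∑ v, (A v).card := by
    apply Finset.sum_lt_sum
    · exact fun v _ => card_le_card (hA'sub v)
    · obtain ⟨l, hlL, hlT⟩ := Finset.exists_of_ssubset hT
      rw [hLdef, mem_sdiff] at hlL
      obtain ⟨hl1, hlX⟩ := hlL
      obtain ⟨x, hx, hlx⟩ := mem_cl.1 hl1
      refine ⟨x, mem_univ _, card_lt_card ⟨hA'sub x, fun hc => ?_⟩⟩
      have hlA : l ∈ A x := by
        rcases mem_Nc.1 hlx with rfl | h'
        · exact absurd hx hlX
        · exact h'
      have := hc hlA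
      have h' : A' x = A x ∩ (X ∪ T) := by simp [A', hx]
      rw [h', mem_inter, mem_union] at this
      tauto
  exact absurd (hmin A' hCE) (not_le.2 hlt)

end Vale.Agent.P038.H214
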