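import Mathlib

/-!
# Seymour's second neighbourhood conjecture: the cut inequality

`N v` is the closed out-neighbourhood of `v` (so `v ∈ N v`).
-/

set_option linter.unusedSectionVars false

namespace Vale.Agent.P038.H214

open Finset

variable {V : Type*} [Fintype V] [DecidableEq V]

/-- closed out-neighbourhood of a set -/
def cl (N : V → Finset V) (S : Finset V) : Finset V := S.biUnion N

/-- size of the out-boundary, as an integer -/
def h (N : V → Finset V) (S : Finset V) : ℤ := ((cl N S).card : ℤ) - S.card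

/-- column intersection: `meet N U z` is the intersection of `U a` over all `a` with `z ∈ N a` -/
def meet (N U : V → Finset V) (z : V) : Finset V :=
  univ.filter fun x => ∀ a, z ∈ N a → x ∈ U a

theorem mem_cl {N : V → Finset V} {S : Finset V} {x : V} :
    x ∈ cl N S ↔ ∃ a ∈ S, x ∈ N a := by
  simp [cl]

theorem mem_meet {N U : V → Finset V} {z x : V} :
    x ∈ meet N U z ↔ ∀ a, z ∈ N a → x ∈ U a := by
  simp [meet]

theorem cl_mono {N : V → Finset V} {S T : Finset V} (hST : S ⊆ T) : cl N S ⊆ cl N T :=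
  Finset.biUnion_subset_biUnion_of_subset_left _ hST

theorem h_sub (N : V → Finset V) (S T : Finset V) :
    h N (S ∪ T) + h N (S ∩ T) ≤ h N S + h N T := by
  have h1 : cl N (S ∪ T) = cl N S ∪ cl N T := by
    ext x; simp only [mem_cl, mem_union]
    constructor
    · rintro ⟨a, ha | ha, hx⟩
      · exact Or.inl ⟨a, ha, hx⟩
      · exact Or.inr ⟨a, ha, hx⟩
    · rintro (⟨a, ha, hx⟩ | ⟨a, ha, hx⟩)
      · exact ⟨a, Or.inl ha, hx⟩
      · exact ⟨a, Or.inr ha, hx⟩
  have h2 : cl N (S ∩ T) ⊆ cl N S ∩ cl N T :=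
    subset_inter (cl_mono inter_subset_left) (cl_mono inter_subset_right)
  have h3 := card_le_card h2
  have h4 := card_union_add_card_inter (cl N S) (cl N T)
  have h5 := card_union_add_card_inter S T
  unfold h
  rw [h1]
  omega

/-- admissible sets -/
def adm (P Q W : Finset V) : Set (Finset V) := {Y | P ⊆ Y ∧ W ∩ Q ⊆ Y ∧ Y ⊆ Q}

theorem adm_nonempty {P Q : Finset V} (W : Finset V) (hPQ : P ⊆ Q) : (adm P Q W).Nonempty :=
  ⟨Q, hPQ, inter_subset_right, Subset.refl _⟩

open Classical in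
/-- `kk N P Q W` is the minimum of `h N Y` over `P ∪ (W ∩ Q) ⊆ Y ⊆ Q`. -/
noncomputable def kk (N : V → Finset V) (P Q W : Finset V) : ℤ :=
  if hn : (adm P Q W).Nonempty then
    h N (Set.exists_min_image (adm P Q W) (h N) (Set.toFinite _) hn).choose
  else 0

theorem kk_spec (N : V → Finset V) {P Q : Finset V} (W : Finset V) (hPQ : P ⊆ Q) :
    ∃ Y ∈ adm P Q W, h N Y = kk N P Q W ∧ ∀ Y' ∈ adm P Q W, kk N P Q W ≤ h N Y' := by
  have hn := adm_nonempty W hPQ
  have hs := (Set.exists_min_image (adm P Q W) (h N) (Set.toFinite _) hn).choose_spec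
  refine ⟨_, hs.1, ?_, ?_⟩
  · rw [kk, dif_pos hn]
  · intro Y' hY'
    rw [kk, dif_pos hn]
    exact hs.2 Y' hY'

theorem kk_univ (N : V → Finset V) {P Q : Finset V} (hPQ : P ⊆ Q) :
    kk N P Q univ = h N Q := by
  obtain ⟨Y, hY, hYe, -⟩ := kk_spec N univ hPQ
  have : Y = Q := by
    apply Subset.antisymm hY.2.2
    have := hY.2.1
    rwa [univ_inter] at this
  rw [← hYe, this]

theorem kk_empty (N : V → Finset V) {P Q : Finset V} (hPQ : P ⊆ Q)
    (hR : ∀ Y, P ⊆ Y → Y ⊆ Q → h N P ≤ h N Y) :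
    kk N P Q ∅ = h N P := by
  obtain ⟨Y, hY, hYe, hmin⟩ := kk_spec N ∅ hPQ
  apply le_antisymm
  · exact hmin P ⟨Subset.refl _, by simp, hPQ⟩
  · rw [← hYe]; exact hR Y hY.1 hY.2.2

theorem kk_mono (N : V → Finset V) {P Q W W' : Finset V} (hPQ : P ⊆ Q) (hW : W ⊆ W') :
    kk N P Q W ≤ kk N P Q W' := by
  obtain ⟨Y, hY, hYe, -⟩ := kk_spec N W' hPQ
  obtain ⟨-, -, -, hmin⟩ := kk_spec N W hPQ
  rw [← hYe]
  exact hmin Y ⟨hY.1, (inter_subset_inter_right hW).trans hY.2.1, hY.2.2⟩

theorem kk_insert_eq (N : V → Finset V) {P Q : Finset V} (W : Finset V) (b : V) (hPQ : P ⊆ Q)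
    (hb : ¬ (b ∈ Q ∧ b ∉ P)) : kk N P Q (insert b W) = kk N P Q W := by
  apply le_antisymm
  · obtain ⟨Y, hY, hYe, -⟩ := kk_spec N W hPQ
    obtain ⟨-, -, -, hmin⟩ := kk_spec N (insert b W) hPQ
    rw [← hYe]
    refine hmin Y ⟨hY.1, ?_, hY.2.2⟩
    intro x hx
    rw [mem_inter, mem_insert] at hx
    rcases hx with ⟨rfl | hx, hxQ⟩
    · by_contra hc
      exact hb ⟨hxQ, fun hP => hc (hY.1 hP)⟩
    · exact hY.2.1 (mem_inter.2 ⟨hx, hxQ⟩)
  · exact kk_mono N hPQ (subset_insert _ _)

/-- the exchange inequality -/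
theorem kk_exch (N : V → Finset V) {P Q p q : Finset V} (W : Finset V) (b : V)
    (hPQ : P ⊆ Q) (hpq : p ⊆ q) (hpP : p ⊆ P) (hqQ : q ⊆ Q) (hb : b ∈ q) :
    kk N P Q (insert b W) + kk N p q W ≤ kk N p q (insert b W) + kk N P Q W := by
  obtain ⟨Y, hY, hYe, -⟩ := kk_spec N (insert b W) hpq
  obtain ⟨Y', hY', hYe', -⟩ := kk_spec N W hPQ
  obtain ⟨-, -, -, hmin1⟩ := kk_spec N (insert b W) hPQ
  obtain ⟨-, -, -, hmin2⟩ := kk_spec N W hpq
  have h1 : kk N P Q (insert b W) ≤ h N (Y ∪ Y') := by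
    refine hmin1 _ ⟨hY'.1.trans subset_union_right, ?_, union_subset (hY.2.2.trans hqQ) hY'.2.2⟩
    intro x hx
    rw [mem_inter, mem_insert] at hx
    rcases hx with ⟨rfl | hx, hxQ⟩
    · exact mem_union_left _ (hY.2.1 (mem_inter.2 ⟨mem_insert_self _ _, hb⟩))
    · exact mem_union_right _ (hY'.2.1 (mem_inter.2 ⟨hx, hxQ⟩))
  have h2 : kk N p q W ≤ h N (Y ∩ Y') := by
    refine hmin2 _ ⟨subset_inter hY.1 (hpP.trans hY'.1), ?_, inter_subset_left.trans hY.2.2⟩
    intro x hx
    rw [mem_inter] at hx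
    exact mem_inter.2 ⟨hY.2.1 (mem_inter.2 ⟨mem_insert_of_mem hx.1, hx.2⟩),
      hY'.2.1 (mem_inter.2 ⟨hx.1, hqQ hx.2⟩)⟩
  have h3 := h_sub N Y Y'
  rw [hYe, hYe'] at h3
  linarith

/-- **The cut inequality.** -/
theorem key (N : V → Finset V) (hN : ∀ v, v ∈ N v) (B U : V → Finset V) (hBU : ∀ a, B a ⊆ U a)
    (hR : ∀ a Y, B a ⊆ Y → Y ⊆ U a → h N (B a) ≤ h N Y)
    (hC : ∀ (b : V) (S : Finset V), (∀ a ∈ S, b ∈ U a ∧ b ∉ B a) →
      S.card ≤ (univ.filter fun z => b ∈ meet N U z ∧ ∃ a ∈ S, z ∈ N a).card) :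
    ∑ a, h N (U a) + ∑ z, h N (meet N B z) ≤ ∑ z, h N (meet N U z) + ∑ a, h N (B a) := by
  have hmm : ∀ z, meet N B z ⊆ meet N U z := by
    intro z x hx
    rw [mem_meet] at hx ⊢
    exact fun a ha => hBU a (hx a ha)
  -- (R')
  have hR' : ∀ z Y, meet N B z ⊆ Y → Y ⊆ meet N U z → h N (meet N B z) ≤ h N Y := by
    intro z Y hY1 hY2
    have hYU : ∀ a, z ∈ N a → Y ⊆ U a := fun a ha x hx => mem_meet.1 (hY2 hx) a ha
    have key1 : ∀ S : Finset V, (∀ a ∈ S, z ∈ N a) →
        h N (Y.filter fun y => ∀ a ∈ S, y ∈ B a) ≤ h N Y := by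
      intro S
      induction S using Finset.induction_on with
      | empty => intro _; simp
      | insert a S haS ih =>
        intro hS
        have ih' := ih fun a' ha' => hS a' (mem_insert_of_mem ha')
        set T := Y.filter fun y => ∀ a ∈ S, y ∈ B a with hT
        have hTe : (Y.filter fun y => ∀ a' ∈ insert a S, y ∈ B a') = T ∩ B a := by
          ext x
          simp only [hT, mem_filter, mem_inter, mem_insert, forall_eq_or_imp]
          tauto
        rw [hTe]
        have hTU : T ⊆ U a := (filter_subset _ _).trans (hYU a (hS a (mem_insert_self _ _)))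
        have h1 := h_sub N T (B a)
        have h2 := hR a (T ∪ B a) subset_union_right (union_subset hTU (hBU a))
        linarith
    have h2 := key1 (univ.filter fun a => z ∈ N a) (by simp)
    have h3 : (Y.filter fun y => ∀ a ∈ (univ.filter fun a => z ∈ N a), y ∈ B a) = meet N B z := by
      ext x
      simp only [mem_filter, mem_univ, true_and, mem_meet]
      constructor
      · exact fun hx => hx.2
      · exact fun hx => ⟨hY1 (mem_meet.2 hx), hx⟩
    rwa [h3] at h2
  -- induction on W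
  have main : ∀ W : Finset V,
      ∑ a, kk N (B a) (U a) W + ∑ z, kk N (meet N B z) (meet N U z) ∅ ≤
      ∑ z, kk N (meet N B z) (meet N U z) W + ∑ a, kk N (B a) (U a) ∅ := by
    intro W
    induction W using Finset.induction_on with
    | empty => exact le_of_eq (add_comm _ _)
    | insert b W hbW ih =>
      -- Hall
      let S := {a : V // b ∈ U a ∧ b ∉ B a}
      let t : S → Finset V := fun a => univ.filter fun z => b ∈ meet N U z ∧ z ∈ N a.1
      have hall : ∀ s : Finset S, s.card ≤ (s.biUnion t).card := by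
        intro s
        have h1 := hC b (s.map (Function.Embedding.subtype _)) (by
          intro a ha
          rw [mem_map] at ha
          obtain ⟨a', -, rfl⟩ := ha
          exact a'.2)
        rw [card_map] at h1
        refine h1.trans (card_le_card ?_)
        intro z hz
        rw [mem_filter] at hz
        obtain ⟨-, hz1, a, ha, hz2⟩ := hz
        rw [mem_map] at ha
        obtain ⟨a', ha', rfl⟩ := ha
        rw [mem_biUnion]
        exact ⟨a', ha', mem_filter.2 ⟨mem_univ _, hz1, hz2⟩⟩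
      obtain ⟨f, hfinj, hft⟩ := (Finset.all_card_le_biUnion_card_iff_exists_injective t).1 hall
      have hf : ∀ a : S, b ∈ meet N U (f a) ∧ f a ∈ N a.1 := fun a => (mem_filter.1 (hft a)).2
      -- the increments
      let α : V → ℤ := fun a => kk N (B a) (U a) (insert b W) - kk N (B a) (U a) W
      let γ : V → ℤ := fun z => kk N (meet N B z) (meet N U z) (insert b W) -
        kk N (meet N B z) (meet N U z) W
      have hγ : ∀ z, 0 ≤ γ z := fun z => by
        have := kk_mono N (hmm z) (subset_insert b W)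
        simp only [γ]; linarith
      have hα0 : ∀ a, ¬ (b ∈ U a ∧ b ∉ B a) → α a = 0 := fun a ha => by
        have := kk_insert_eq N W b (hBU a) ha
        simp only [α]; linarith
      have hαγ : ∀ a : S, α a.1 ≤ γ (f a) := by
        intro a
        have h1 : meet N B (f a) ⊆ B a.1 := fun x hx => mem_meet.1 hx _ (hf a).2
        have h2 : meet N U (f a) ⊆ U a.1 := fun x hx => mem_meet.1 hx _ (hf a).2
        have := kk_exch N W b (hBU a.1) (hmm (f a)) h1 h2 (hf a).1
        simp only [α, γ]; linarith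
      have hsum : ∑ a, α a ≤ ∑ z, γ z := by
        have e1 : ∑ a, α a = ∑ a : S, α a.1 := by
          have h1 : ∑ a ∈ univ.filter (fun a => b ∈ U a ∧ b ∉ B a), α a = ∑ a, α a := by
            apply Finset.sum_subset (filter_subset _ _)
            intro a _ ha
            exact hα0 a fun hc => ha (mem_filter.2 ⟨mem_univ _, hc⟩)
          rw [← h1]
          exact Finset.sum_subtype _ (by simp) _
        have e2 : ∑ a : S, α a.1 ≤ ∑ a : S, γ (f a) := Finset.sum_le_sum fun a _ => hαγ a
        have e3 : ∑ a : S, γ (f a) ≤ ∑ z, γ z := by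
          have : ∑ a : S, γ (f a) = ∑ z ∈ univ.image f, γ z := by
            rw [Finset.sum_image]
            exact fun x _ y _ hxy => hfinj hxy
          rw [this]
          exact Finset.sum_le_sum_of_subset_of_nonneg (subset_univ _) fun z _ _ => hγ z
        rw [e1]; exact e2.trans e3
      have hs1 : ∑ a, α a = ∑ a, kk N (B a) (U a) (insert b W) - ∑ a, kk N (B a) (U a) W := by
        simp only [α, Finset.sum_sub_distrib]
      have hs2 : ∑ z, γ z = ∑ z, kk N (meet N B z) (meet N U z) (insert b W) -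
          ∑ z, kk N (meet N B z) (meet N U z) W := by
        simp only [γ, Finset.sum_sub_distrib]
      linarith
  have hfin := main univ
  have e1 : ∀ a, kk N (B a) (U a) univ = h N (U a) := fun a => kk_univ N (hBU a)
  have e2 : ∀ z, kk N (meet N B z) (meet N U z) univ = h N (meet N U z) := fun z => kk_univ N (hmm z)
  have e3 : ∀ a, kk N (B a) (U a) ∅ = h N (B a) := fun a => kk_empty N (hBU a) (hR a)
  have e4 : ∀ z, kk N (meet N B z) (meet N U z) ∅ = h N (meet N B z) :=
    fun z => kk_empty N (hmm z) (hR' z)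
  simp only [e1, e2, e3, e4] at hfin
  exact hfin

end Vale.Agent.P038.H214
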